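import Vale.Agent.P080C1.Defs

/-!
Derivatives of the flux along curves, and the algebra of the energy identity.
-/

noncomputable section

namespace Vale.Agent.P080C1.Identity

/-- The Euclidean norm of a coordinate vector. -/
def rr (p : Fin 3 → ℝ) : ℝ := Real.sqrt (∑ i, p i ^ 2)

/-- The Kronecker symbol. -/
def kron (i j : Fin 3) : ℝ := if i = j then 1 else 0

/-- The diagonal part of the tensor. -/
def diagPart (p : Fin 3 → ℝ) : ℝ :=
  -2 * rr p * Real.log ((rr p + p 2) / (2 * rr p)) + p 2 - rr p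

/-- The tensor. -/
def tens (p : Fin 3 → ℝ) (i j : Fin 3) : ℝ :=
  (rr p - p 2) * (p i + rr p * kron i 2) * p j / (rr p * (rr p + p 2)) + diagPart p * kron i j

/-- The flux, linear in `c = A N`. -/
def kFlux (p c : Fin 3 → ℝ) (i : Fin 3) : ℝ :=
  let r := rr p
  let n := p 2 / r
  let σ := (∑ k, p k * c k) / r
  let f := (1 - n) / (1 + n)
  2 / (1 + n) ^ 2 * (c 2 - σ * n) * (p i / r + kron i 2) - f * (c i - σ * (p i / r))
    + (2 * Real.log ((1 + n) / 2) - (n - 1) - n * f - f) * c i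
    + (2 * (p i / r) * c 2 - 2 * kron i 2 * σ) / (1 + n)

/-- The trace. -/
def trc (A : Fin 3 → Fin 3 → ℝ) : ℝ := ∑ k, A k k

/-- The vector `A p`. -/
def av (p : Fin 3 → ℝ) (A : Fin 3 → Fin 3 → ℝ) (i : Fin 3) : ℝ := ∑ j, A i j * p j

/-- The number `p ⬝ A p`. -/
def sv (p : Fin 3 → ℝ) (A : Fin 3 → Fin 3 → ℝ) : ℝ := ∑ i, p i * av p A i

/-- The polynomial part of the flux. -/
def vv (p : Fin 3 → ℝ) (A : Fin 3 → Fin 3 → ℝ) (i : Fin 3) : ℝ :=
  rr p ^ 2 * A i 2 - p 2 * av p A i - p i * av p A 2 + kron i 2 * sv p A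
    - trc A * (rr p ^ 2 * kron i 2 - p 2 * p i)

/-- The flux, with the divergence-free gauge term included. -/
def zflux (p : Fin 3 → ℝ) (A : Fin 3 → Fin 3 → ℝ) (i : Fin 3) : ℝ :=
  (p i * trc A - av p A i) / rr p - 2 * vv p A i / (rr p * (rr p + p 2))
    + (A i 2 - kron i 2 * trc A)

theorem rr_sq (p : Fin 3 → ℝ) : rr p ^ 2 = p 0 ^ 2 + p 1 ^ 2 + p 2 ^ 2 := by
  rw [rr, Real.sq_sqrt (Finset.sum_nonneg fun i _ => sq_nonneg _)]
  simp [Fin.sum_univ_three]

theorem rr_nonneg (p : Fin 3 → ℝ) : 0 ≤ rr p := Real.sqrt_nonneg _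

theorem abs_le_rr (p : Fin 3 → ℝ) (i : Fin 3) : |p i| ≤ rr p :=
  Real.abs_le_sqrt (Finset.single_le_sum (fun j _ => sq_nonneg (p j)) (Finset.mem_univ i))

section Curves

variable {pt : ℝ → Fin 3 → ℝ} {At : ℝ → Fin 3 → Fin 3 → ℝ}
  {dp : Fin 3 → ℝ} {dA : Fin 3 → Fin 3 → ℝ}

theorem hasDerivAt_rr (hp : ∀ k, HasDerivAt (fun t => pt t k) (dp k) 0) (hr : 0 < rr (pt 0)) :
    HasDerivAt (fun t => rr (pt t)) ((∑ k, pt 0 k * dp k) / rr (pt 0)) 0 := by
  have h2 : (0 : ℝ) < ∑ i, pt 0 i ^ 2 := by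
    by_contra h
    rw [rr, Real.sqrt_eq_zero'.2 (not_lt.1 h)] at hr
    exact lt_irrefl _ hr
  have h1 : HasDerivAt (fun t => ∑ i, pt t i ^ 2) (∑ i, 2 * pt 0 i * dp i) 0 := by
    refine HasDerivAt.fun_sum fun i _ => ?_
    simpa using (hp i).fun_pow 2
  refine (h1.sqrt h2.ne').congr_deriv ?_
  unfold rr at *
  simp only [mul_assoc, ← Finset.mul_sum]
  field_simp

theorem hasDerivAt_trc (hA : ∀ k j, HasDerivAt (fun t => At t k j) (dA k j) 0) :
    HasDerivAt (fun t => trc (At t)) (trc dA) 0 :=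
  HasDerivAt.fun_sum fun k _ => hA k k

theorem hasDerivAt_av (hp : ∀ k, HasDerivAt (fun t => pt t k) (dp k) 0)
    (hA : ∀ k j, HasDerivAt (fun t => At t k j) (dA k j) 0) (i : Fin 3) :
    HasDerivAt (fun t => av (pt t) (At t) i) (av (pt 0) dA i + av dp (At 0) i) 0 := by
  simp only [av, ← Finset.sum_add_distrib]
  exact HasDerivAt.fun_sum fun j _ => (hA i j).fun_mul (hp j)

theorem hasDerivAt_sv (hp : ∀ k, HasDerivAt (fun t => pt t k) (dp k) 0)
    (hA : ∀ k j, HasDerivAt (fun t => At t k j) (dA k j) 0) :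
    HasDerivAt (fun t => sv (pt t) (At t))
      (∑ i, (dp i * av (pt 0) (At 0) i + pt 0 i * (av (pt 0) dA i + av dp (At 0) i))) 0 :=
  HasDerivAt.fun_sum fun i _ => (hp i).fun_mul (hasDerivAt_av hp hA i)

/-- The derivative of `rr * (rr + p 2)`. -/
def dDen (p dp : Fin 3 → ℝ) : ℝ :=
  (∑ k, p k * dp k) / rr p * (rr p + p 2)
    + rr p * ((∑ k, p k * dp k) / rr p + dp 2)

theorem hasDerivAt_den (hp : ∀ k, HasDerivAt (fun t => pt t k) (dp k) 0) (hr : 0 < rr (pt 0)) :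
    HasDerivAt (fun t => rr (pt t) * (rr (pt t) + pt t 2)) (dDen (pt 0) dp) 0 :=
  (hasDerivAt_rr hp hr).fun_mul ((hasDerivAt_rr hp hr).fun_add (hp 2))

/-- The derivative of `vv`. -/
def dvv (p : Fin 3 → ℝ) (A : Fin 3 → Fin 3 → ℝ) (dp : Fin 3 → ℝ) (dA : Fin 3 → Fin 3 → ℝ)
    (i : Fin 3) : ℝ :=
  2 * (∑ k, p k * dp k) * A i 2 + rr p ^ 2 * dA i 2
    - (dp 2 * av p A i + p 2 * (av p dA i + av dp A i))
    - (dp i * av p A 2 + p i * (av p dA 2 + av dp A 2))
    + kron i 2 * (∑ l, (dp l * av p A l + p l * (av p dA l + av dp A l)))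
    - (trc dA * (rr p ^ 2 * kron i 2 - p 2 * p i)
      + trc A * (2 * (∑ k, p k * dp k) * kron i 2 - (dp 2 * p i + p 2 * dp i)))

theorem hasDerivAt_rr_sq (hp : ∀ k, HasDerivAt (fun t => pt t k) (dp k) 0)
    (hr : 0 < rr (pt 0)) :
    HasDerivAt (fun t => rr (pt t) ^ 2) (2 * ∑ k, pt 0 k * dp k) 0 := by
  refine ((hasDerivAt_rr hp hr).fun_pow 2).congr_deriv ?_
  simp
  field_simp

theorem hasDerivAt_vv (hp : ∀ k, HasDerivAt (fun t => pt t k) (dp k) 0)
    (hA : ∀ k j, HasDerivAt (fun t => At t k j) (dA k j) 0) (hr : 0 < rr (pt 0)) (i : Fin 3) :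
    HasDerivAt (fun t => vv (pt t) (At t) i) (dvv (pt 0) (At 0) dp dA i) 0 := by
  have h2 := hasDerivAt_rr_sq hp hr
  exact ((((h2.fun_mul (hA i 2)).fun_sub ((hp 2).fun_mul (hasDerivAt_av hp hA i))).fun_sub
    ((hp i).fun_mul (hasDerivAt_av hp hA 2))).fun_add
      ((hasDerivAt_sv hp hA).const_mul (kron i 2))).fun_sub
    ((hasDerivAt_trc hA).fun_mul ((h2.mul_const (kron i 2)).fun_sub ((hp 2).fun_mul (hp i))))

/-- The derivative of `zflux`. -/
def dzflux (p : Fin 3 → ℝ) (A : Fin 3 → Fin 3 → ℝ) (dp : Fin 3 → ℝ) (dA : Fin 3 → Fin 3 → ℝ)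
    (i : Fin 3) : ℝ :=
  (dp i * trc A + p i * trc dA - (av p dA i + av dp A i)) / rr p
    - (p i * trc A - av p A i) * ((∑ k, p k * dp k) / rr p) / rr p ^ 2
    - (2 * dvv p A dp dA i / (rr p * (rr p + p 2))
      - 2 * vv p A i * dDen p dp / (rr p * (rr p + p 2)) ^ 2)
    + (dA i 2 - kron i 2 * trc dA)

theorem hasDerivAt_zflux (hp : ∀ k, HasDerivAt (fun t => pt t k) (dp k) 0)
    (hA : ∀ k j, HasDerivAt (fun t => At t k j) (dA k j) 0) (hr : 0 < rr (pt 0))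
    (hq : 0 < rr (pt 0) + pt 0 2) (i : Fin 3) :
    HasDerivAt (fun t => zflux (pt t) (At t) i) (dzflux (pt 0) (At 0) dp dA i) 0 := by
  have h1 := (((hp i).fun_mul (hasDerivAt_trc hA)).fun_sub (hasDerivAt_av hp hA i)).fun_div
    (hasDerivAt_rr hp hr) hr.ne'
  have h2 := ((hasDerivAt_vv hp hA hr i).const_mul 2).fun_div (hasDerivAt_den hp hr)
    (mul_pos hr hq).ne'
  have h3 := (hA i 2).fun_sub ((hasDerivAt_trc hA).const_mul (kron i 2))
  refine ((h1.fun_sub h2).fun_add h3).congr_deriv ?_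
  unfold dzflux
  field_simp

/-- The derivative of `diagPart`. -/
def dDiag (p dp : Fin 3 → ℝ) : ℝ :=
  -2 * ((∑ k, p k * dp k) / rr p) * Real.log ((rr p + p 2) / (2 * rr p))
    - 2 * rr p * (((∑ k, p k * dp k) / rr p + dp 2) / (rr p + p 2)
      - (∑ k, p k * dp k) / rr p / rr p)
    + dp 2 - (∑ k, p k * dp k) / rr p

theorem hasDerivAt_diagPart (hp : ∀ k, HasDerivAt (fun t => pt t k) (dp k) 0)
    (hr : 0 < rr (pt 0)) (hq : 0 < rr (pt 0) + pt 0 2) :
    HasDerivAt (fun t => diagPart (pt t)) (dDiag (pt 0) dp) 0 := by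
  have h := hasDerivAt_rr hp hr
  have hl := ((h.fun_add (hp 2)).fun_div (h.const_mul 2) (by positivity)).log
    (by positivity)
  refine ((((h.const_mul (-2)).fun_mul hl).fun_add (hp 2)).fun_sub h).congr_deriv ?_
  unfold dDiag
  field_simp
  ring

/-- The derivative of `tens`. -/
def dtens (p dp : Fin 3 → ℝ) (i j : Fin 3) : ℝ :=
  ((((∑ k, p k * dp k) / rr p - dp 2) * (p i + rr p * kron i 2)
        + (rr p - p 2) * (dp i + (∑ k, p k * dp k) / rr p * kron i 2)) * p j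
      + (rr p - p 2) * (p i + rr p * kron i 2) * dp j) / (rr p * (rr p + p 2))
    - (rr p - p 2) * (p i + rr p * kron i 2) * p j * dDen p dp / (rr p * (rr p + p 2)) ^ 2
    + dDiag p dp * kron i j

theorem hasDerivAt_tens (hp : ∀ k, HasDerivAt (fun t => pt t k) (dp k) 0) (hr : 0 < rr (pt 0))
    (hq : 0 < rr (pt 0) + pt 0 2) (i j : Fin 3) :
    HasDerivAt (fun t => tens (pt t) i j) (dtens (pt 0) dp i j) 0 := by
  have h := hasDerivAt_rr hp hr
  have h2 := (((h.fun_sub (hp 2)).fun_mul ((hp i).fun_add (h.mul_const (kron i 2)))).fun_mul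
    (hp j)).fun_div (hasDerivAt_den hp hr) (mul_pos hr hq).ne'
  have h3 := (hasDerivAt_diagPart hp hr hq).mul_const (kron i j)
  refine (h2.fun_add h3).congr_deriv ?_
  unfold dtens
  field_simp

end Curves

section Algebra

variable {p : Fin 3 → ℝ} {A : Fin 3 → Fin 3 → ℝ} {T : Fin 3 → Fin 3 → Fin 3 → ℝ}

/-- The identity of the quadratic invariants. -/
theorem quad_identity (hA : ∀ i j, A i j = A j i) :
    (trc A ^ 2 - ∑ i, ∑ j, A i j ^ 2) * (rr p ^ 2 - p 2 ^ 2)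
      + 2 * ((∑ i, av p A i ^ 2) - trc A * sv p A)
      - 4 * p 2 * ((∑ i, av p A i * A i 2) - trc A * av p A 2)
      + 2 * rr p ^ 2 * ((∑ i, A i 2 ^ 2) - trc A * A 2 2)
      + 2 * (A 2 2 * sv p A - av p A 2 ^ 2) = 0 := by
  simp only [rr_sq, trc, av, sv, Fin.sum_univ_three]
  rw [hA 1 0, hA 2 0, hA 2 1]
  ring

theorem sum_dzflux (hA : ∀ i j, A i j = A j i) (hT : ∀ l i j, T l i j = T l j i)
    (hT' : ∀ l i j, T l i j = T i l j) (hr : 0 < rr p) (hq : 0 < rr p + p 2) :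
    ∑ i, dzflux p A (A i) (T i) i =
      -(((∑ i, av p A i ^ 2) - trc A * sv p A) / rr p ^ 3) := by
  set e2 := trc A ^ 2 - ∑ i, ∑ j, A i j ^ 2 with he2
  set w := (∑ i, av p A i ^ 2) - trc A * sv p A with hw
  set u := (∑ i, av p A i * A i 2) - trc A * av p A 2 with hu
  set P := (∑ i, A i 2 ^ 2) - trc A * A 2 2 with hP
  set m := A 2 2 * sv p A - av p A 2 ^ 2 with hm
  have hc : ∀ i, ∑ k, p k * A i k = av p A i :=
    fun i => Finset.sum_congr rfl fun k _ => mul_comm _ _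
  have s1 : ∑ i, (A i i * trc A + p i * trc (T i) - (av p (T i) i + av (A i) A i)) = e2 := by
    simp only [he2, trc, av, Fin.sum_univ_three]
    rw [hT' 1 0 0, hT' 2 0 0, hT' 2 1 1, hT' 0 1 1, hT' 0 2 2, hT' 1 2 2, hA 1 0, hA 2 0, hA 2 1]
    simp only [hT 0 1 0, hT 0 2 0, hT 1 2 1, hT 1 0 1, hT 2 0 2, hT 2 1 2]
    ring
  have s2 : ∑ i, (p i * trc A - av p A i) * av p A i = -w := by
    simp only [hw, sv, sub_mul, Finset.sum_sub_distrib]
    rw [Finset.mul_sum]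
    simp only [neg_sub]
    congr 1
    · exact Finset.sum_congr rfl fun i _ => by ring
    · exact Finset.sum_congr rfl fun i _ => by ring
  have s3 : ∑ i, dvv p A (A i) (T i) i = 2 * u + p 2 * e2 := by
    simp only [hu, he2, dvv, rr_sq, trc, av, kron, Fin.sum_univ_three]
    simp only [Fin.reduceEq, if_false, if_true]
    rw [hT' 1 0 0, hT' 2 0 0, hT' 2 1 1, hT' 0 1 1, hT' 0 2 2, hT' 1 2 2, hA 1 0, hA 2 0, hA 2 1]
    simp only [hT 0 1 0, hT 0 2 0, hT 1 2 1, hT 1 0 1, hT 2 0 2, hT 2 1 2, hT' 1 0 2, hT' 2 0 1,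
      hT 0 2 1, hT' 2 1 0, hT 1 2 0]
    ring
  have s4 : ∑ i, vv p A i * av p A i = rr p ^ 2 * u - p 2 * w := by
    simp only [hu, hw, vv, trc, av, sv, kron, Fin.sum_univ_three]
    simp only [Fin.reduceEq, if_false, if_true]
    ring
  have s5 : ∑ i, vv p A i * A i 2 = rr p ^ 2 * P - p 2 * u + m := by
    simp only [hu, hP, hm, vv, trc, av, sv, kron, Fin.sum_univ_three]
    simp only [Fin.reduceEq, if_false, if_true]
    rw [hA 1 0, hA 2 0, hA 2 1]
    ring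
  have s6 : ∑ i, (T i i 2 - kron i 2 * trc (T i)) = 0 := by
    simp only [trc, kron, Fin.sum_univ_three]
    simp only [Fin.reduceEq, if_false, if_true]
    rw [hT' 2 0 0, hT' 2 1 1]
    simp only [hT 0 2 0, hT 1 2 1]
    ring
  have hq' := hq.ne'
  have hr' := hr.ne'
  have key : ∑ i, dzflux p A (A i) (T i) i =
      e2 / rr p - (-w) / rr p ^ 3 - 2 * (2 * u + p 2 * e2) / (rr p * (rr p + p 2))
        + 2 * ((2 + p 2 / rr p) * (rr p ^ 2 * u - p 2 * w)
          + rr p * (rr p ^ 2 * P - p 2 * u + m)) / (rr p * (rr p + p 2)) ^ 2 := by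
    rw [← s3, ← s4, ← s5, ← s1, ← s2]
    have e : ∀ i, dzflux p A (A i) (T i) i =
        (A i i * trc A + p i * trc (T i) - (av p (T i) i + av (A i) A i)) / rr p
        - (p i * trc A - av p A i) * av p A i / rr p ^ 3
        - 2 * dvv p A (A i) (T i) i / (rr p * (rr p + p 2))
        + 2 * ((2 + p 2 / rr p) * (vv p A i * av p A i) + rr p * (vv p A i * A i 2))
            / (rr p * (rr p + p 2)) ^ 2
        + (T i i 2 - kron i 2 * trc (T i)) := by
      intro i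
      rw [dzflux, dDen, hc]
      field_simp
      ring
    simp only [e, Finset.sum_add_distrib, Finset.sum_sub_distrib, ← Finset.sum_div,
      ← Finset.mul_sum, s6]
    ring
  rw [key]
  have hR : e2 * (rr p ^ 2 - p 2 ^ 2) + 2 * w - 4 * p 2 * u + 2 * rr p ^ 2 * P + 2 * m = 0 :=
    quad_identity hA
  field_simp
  linear_combination rr p ^ 2 * hR

theorem zflux_eq (hA : ∀ i j, A i j = A j i) (hr : 0 < rr p) (hq : 0 < rr p + p 2) (i : Fin 3) :
    zflux p A i = (∑ j, dtens p (A j) i j) + kFlux p (fun k => av p A k / rr p) i := by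
  have hc : ∀ j, ∑ k, p k * A j k = av p A j :=
    fun j => Finset.sum_congr rfl fun k _ => mul_comm _ _
  have hq' := hq.ne'
  have hr' := hr.ne'
  have hl : (1 + p 2 / rr p) / 2 = (rr p + p 2) / (2 * rr p) := by field_simp
  simp only [dtens, dDen, dDiag, hc, zflux, vv, kFlux, hl, Fin.sum_univ_three]
  fin_cases i <;>
    (simp only [trc, sv, av, kron, Fin.sum_univ_three, Fin.reduceEq, Fin.zero_eta, Fin.mk_one,
      Fin.reduceFinMk, if_false, if_true]
     rw [hA 1 0, hA 2 0, hA 2 1]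
     field_simp
     ring)

end Algebra

end Vale.Agent.P080C1.Identity
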