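import Vale.Agent.P080C1.Caccio.IdentityDefs
import Vale.Agent.P080C1.Identity.Calc

/-!
The integrated energy identity.
-/

noncomputable section

open MeasureTheory Filter Topology Set
open scoped ContDiff

namespace Vale.Agent.P080C1.Identity

open Vale.Agent.P080C1 (E3 ee pd pd2 gnorm lap)

/-- The coordinates of the gradient. -/
def gr (v : E3 → ℝ) (x : E3) : Fin 3 → ℝ := fun i => pd i v x

/-- The matrix of second derivatives. -/
def he (v : E3 → ℝ) (x : E3) : Fin 3 → Fin 3 → ℝ := fun i j => pd2 i j v x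

/-- The matrices of third derivatives. -/
def th (v : E3 → ℝ) (x : E3) : Fin 3 → Fin 3 → Fin 3 → ℝ :=
  fun l i j => pd l (pd2 i j v) x

theorem contDiffOn_pd {U : Set E3} (hU : IsOpen U) {m n : WithTop ℕ∞} {g : E3 → ℝ}
    (hg : ContDiffOn ℝ n g U) (hmn : m + 1 ≤ n) (i : Fin 3) : ContDiffOn ℝ m (pd i g) U :=
  (hg.fderiv_of_isOpen hU hmn).clm_apply contDiffOn_const

theorem pd2_comm {g : E3 → ℝ} {x : E3} (hg : ContDiffAt ℝ 2 g x) (i j : Fin 3) :
    pd2 i j g x = pd2 j i g x := by
  have hd : DifferentiableAt ℝ (fderiv ℝ g) x :=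
    (hg.fderiv_right (m := 1) le_rfl).differentiableAt one_ne_zero
  have e : ∀ i j, pd2 i j g x = fderiv ℝ (fderiv ℝ g) x (ee i) (ee j) := fun i j => by
    have h : HasFDerivAt (pd j g)
        ((fderiv ℝ g x).comp (0 : E3 →L[ℝ] E3) + (fderiv ℝ (fderiv ℝ g) x).flip (ee j)) x :=
      hd.hasFDerivAt.clm_apply (hasFDerivAt_const (ee j) x)
    simp [pd2, pd, show fderiv ℝ (pd j g) x = _ from h.fderiv]
  rw [e, e]
  exact hg.isSymmSndFDerivAt (by simp) (ee i) (ee j)

theorem hasDerivAt_line {g : E3 → ℝ} {x : E3} (hg : DifferentiableAt ℝ g x) (i : Fin 3) :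
    HasDerivAt (fun t : ℝ => g (x + t • ee i)) (pd i g x) 0 := by
  have h : HasDerivAt (fun t : ℝ => x + t • ee i) (ee i) 0 := by
    simpa using ((hasDerivAt_id (0 : ℝ)).smul_const (ee i)).const_add x
  exact hg.hasFDerivAt.comp_hasDerivAt_of_eq 0 h (by simp)

/-- A function supported, as a factor, inside an open set gives a global smooth product. -/
theorem contDiff_mul_of_tsupport {U : Set E3} (hU : IsOpen U) {φ g : E3 → ℝ} {m : WithTop ℕ∞}
    (hφ : ContDiff ℝ m φ) (hφU : tsupport φ ⊆ U) (hg : ContDiffOn ℝ m g U) :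
    ContDiff ℝ m (fun x => φ x * g x) := by
  rw [contDiff_iff_contDiffAt]
  intro x
  by_cases hx : x ∈ U
  · exact hφ.contDiffAt.mul (hg.contDiffAt (hU.mem_nhds hx))
  · have h0 : φ =ᶠ[𝓝 x] 0 :=
      notMem_tsupport_iff_eventuallyEq.1 fun h => hx (hφU h)
    refine (contDiffAt_const (c := (0 : ℝ))).congr_of_eventuallyEq ?_
    filter_upwards [h0] with y hy
    simp [hy]

theorem integral_pd_eq_zero {F : E3 → ℝ} (hF : ContDiff ℝ 1 F) (hs : HasCompactSupport F)
    (i : Fin 3) : ∫ x, pd i F x = 0 := by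
  have hd : Integrable (fun x => fderiv ℝ F x (ee i)) :=
    ((hF.continuous_fderiv one_ne_zero).clm_apply continuous_const).integrable_of_hasCompactSupport
      (hs.fderiv_apply ℝ (ee i))
  have := integral_mul_fderiv_eq_neg_fderiv_mul_of_integrable (μ := volume)
    (f := fun _ : E3 => (1 : ℝ)) (g := F) (v := ee i)
    (by simp) (by simpa using hd)
    (by simpa using hF.continuous.integrable_of_hasCompactSupport hs)
    (fun x _ => differentiableAt_const _) (fun x _ => hF.differentiable one_ne_zero x)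
  simpa [pd] using this

variable {O U : Set E3} {v : E3 → ℝ}

theorem good_pos {p : Fin 3 → ℝ} (h : 0 < rr p + p 2) : 0 < rr p := by
  have := abs_le_rr p 2
  have := abs_le.1 this
  linarith

theorem contDiffOn_rr {m : WithTop ℕ∞} {p : E3 → Fin 3 → ℝ}
    (hp : ∀ k, ContDiffOn ℝ m (fun x => p x k) U) (hne : ∀ x ∈ U, 0 < rr (p x)) :
    ContDiffOn ℝ m (fun x => rr (p x)) U := by
  refine (ContDiffOn.sum fun i _ => (hp i).pow 2).sqrt fun x hx h => ?_
  have := hne x hx
  simp [rr, h] at this

theorem contDiffOn_zflux {p : E3 → Fin 3 → ℝ} {A : E3 → Fin 3 → Fin 3 → ℝ}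
    (hp : ∀ k, ContDiffOn ℝ 1 (fun x => p x k) U)
    (hA : ∀ k j, ContDiffOn ℝ 1 (fun x => A x k j) U) (hq : ∀ x ∈ U, 0 < rr (p x) + p x 2)
    (i : Fin 3) : ContDiffOn ℝ 1 (fun x => zflux (p x) (A x) i) U := by
  have hr := fun x hx => good_pos (hq x hx)
  have hR := contDiffOn_rr hp hr
  have ht : ContDiffOn ℝ 1 (fun x => trc (A x)) U := ContDiffOn.sum fun k _ => hA k k
  have ha : ∀ l, ContDiffOn ℝ 1 (fun x => av (p x) (A x) l) U :=
    fun l => ContDiffOn.sum fun j _ => (hA l j).mul (hp j)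
  have hs : ContDiffOn ℝ 1 (fun x => sv (p x) (A x)) U :=
    ContDiffOn.sum fun l _ => (hp l).mul (ha l)
  have hv : ContDiffOn ℝ 1 (fun x => vv (p x) (A x) i) U :=
    (((((hR.pow 2).mul (hA i 2)).sub ((hp 2).mul (ha i))).sub ((hp i).mul (ha 2))).add
      (contDiffOn_const.mul hs)).sub
      (ht.mul (((hR.pow 2).mul contDiffOn_const).sub ((hp 2).mul (hp i))))
  exact (((((hp i).mul ht).sub (ha i)).div hR fun x hx => (hr x hx).ne').sub
    ((contDiffOn_const.mul hv).div (hR.mul (hR.add (hp 2)))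
      fun x hx => (mul_pos (hr x hx) (hq x hx)).ne')).add
    ((hA i 2).sub (contDiffOn_const.mul ht))

theorem contDiffOn_tens {p : E3 → Fin 3 → ℝ} (hp : ∀ k, ContDiffOn ℝ 1 (fun x => p x k) U)
    (hq : ∀ x ∈ U, 0 < rr (p x) + p x 2) (i j : Fin 3) :
    ContDiffOn ℝ 1 (fun x => tens (p x) i j) U := by
  have hr := fun x hx => good_pos (hq x hx)
  have hR := contDiffOn_rr hp hr
  have hD : ContDiffOn ℝ 1 (fun x => diagPart (p x)) U :=
    (((contDiffOn_const.mul hR).mul
      (((hR.add (hp 2)).div (contDiffOn_const.mul hR)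
        fun x hx => (mul_pos two_pos (hr x hx)).ne').log fun x hx =>
          (div_pos (hq x hx) (mul_pos two_pos (hr x hx))).ne')).add (hp 2)).sub hR
  exact ((((hR.sub (hp 2)).mul ((hp i).add (hR.mul contDiffOn_const))).mul (hp j)).div
    (hR.mul (hR.add (hp 2))) fun x hx => (mul_pos (hr x hx) (hq x hx)).ne').add
    (hD.mul contDiffOn_const)

theorem rr_gr (v : E3 → ℝ) (x : E3) : rr (gr v x) = gnorm v x := rfl

theorem tens_eq_mflux (x : E3) (hr : 0 < gnorm v x) (i j : Fin 3) :
    tens (gr v x) i j = Caccio.mflux v i j x := by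
  simp only [tens, Caccio.mflux, Caccio.fq, Caccio.Fq, Caccio.nv, Caccio.dz, diagPart, kron,
    rr_gr]
  have e : (1 + gr v x 2 / gnorm v x) / 2 = (gnorm v x + gr v x 2) / (2 * gnorm v x) := by
    field_simp
  simp only [gr] at e ⊢
  rw [e]
  split_ifs <;> field_simp <;> ring

theorem kFlux_eq_kflux (x : E3) (i : Fin 3) :
    kFlux (gr v x) (fun k => av (gr v x) (he v x) k / rr (gr v x)) i = Caccio.kflux v i x := by
  have ha : ∀ k, Caccio.an v k x = av (gr v x) (he v x) k / rr (gr v x) := fun k => by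
    simp only [Caccio.an, Caccio.nv, av, gr, he, rr_gr, Finset.sum_div]
    exact Finset.sum_congr rfl fun j _ => by ring
  have hs : Caccio.sig v x
      = (∑ k, gr v x k * (av (gr v x) (he v x) k / rr (gr v x))) / rr (gr v x) := by
    simp only [Caccio.sig, ha, Caccio.nv, rr_gr, Finset.sum_div]
    exact Finset.sum_congr rfl fun j _ => by simp only [gr]; ring
  simp only [kFlux, Caccio.kflux, Caccio.bv, Caccio.fq, Caccio.Fq, ha, hs, Caccio.dz,
    Caccio.nv, kron, rr_gr]
  simp only [gr]
  ring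

theorem target_eq (x : E3) (hr : 0 < gnorm v x) :
    (Caccio.bsq v x - Caccio.sig v x * Caccio.strc v x) / gnorm v x =
      ((∑ i, av (gr v x) (he v x) i ^ 2) - trc (he v x) * sv (gr v x) (he v x))
        / rr (gr v x) ^ 3 := by
  have ha : ∀ k, Caccio.an v k x = av (gr v x) (he v x) k / gnorm v x := fun k => by
    simp only [Caccio.an, Caccio.nv, av, gr, he, Finset.sum_div]
    exact Finset.sum_congr rfl fun j _ => by ring
  have hn : ∑ i, pd i v x ^ 2 = gnorm v x ^ 2 := by
    rw [gnorm, Real.sq_sqrt (Finset.sum_nonneg fun i _ => sq_nonneg _)]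
  have hs : Caccio.sig v x = sv (gr v x) (he v x) / gnorm v x ^ 2 := by
    simp only [Caccio.sig, ha, Caccio.nv, sv, gr, Finset.sum_div]
    exact Finset.sum_congr rfl fun j _ => by ring
  have hb : Caccio.bsq v x = (∑ i, av (gr v x) (he v x) i ^ 2) / gnorm v x ^ 2
      - Caccio.sig v x ^ 2 := by
    have e : ∀ i, Caccio.bv v i x ^ 2 = av (gr v x) (he v x) i ^ 2 / gnorm v x ^ 2
        - 2 * Caccio.sig v x * (Caccio.an v i x * Caccio.nv v i x)
        + Caccio.sig v x ^ 2 / gnorm v x ^ 2 * pd i v x ^ 2 := fun i => by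
      simp only [Caccio.bv, ha, Caccio.nv]; field_simp; ring
    simp only [Caccio.bsq, e, Finset.sum_add_distrib, Finset.sum_sub_distrib, ← Finset.mul_sum,
      ← Finset.sum_div, hn]
    rw [show ∑ i, Caccio.an v i x * Caccio.nv v i x = Caccio.sig v x from rfl]
    field_simp
    ring
  rw [hb, Caccio.strc, hs, rr_gr, show lap v x = trc (he v x) from rfl]
  field_simp
  ring

/-- The integrated identity. -/
theorem identity : Caccio.IdentityProp := by
  intro O v ψ hO hv hψ hψc hψO hpos
  set U := {x ∈ O | 0 < gnorm v x + pd 2 v x} with hUdef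
  have hp2 : ∀ k, ContDiffOn ℝ 2 (pd k v) O :=
    fun k => contDiffOn_pd hO hv (by norm_num) k
  have hgc : ContinuousOn (fun x => gnorm v x + pd 2 v x) O :=
    (Real.continuous_sqrt.comp_continuousOn
      (continuousOn_finsetSum _ fun k _ => (hp2 k).continuousOn.pow 2)).add (hp2 2).continuousOn
  have hU : IsOpen U := hgc.isOpen_inter_preimage hO isOpen_Ioi
  have hUO : U ⊆ O := fun x hx => hx.1
  have hψU : tsupport ψ ⊆ U := fun x hx => ⟨hψO hx, by
    obtain ⟨h1, h2⟩ := hpos x hx
    rw [Caccio.nv, lt_div_iff₀ h1] at h2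
    linarith⟩
  have hpU : ∀ k, ContDiffOn ℝ 1 (fun x => gr v x k) U :=
    fun k => ((hp2 k).mono hUO).of_le one_le_two
  have hAU : ∀ k j, ContDiffOn ℝ 1 (fun x => he v x k j) U :=
    fun k j => contDiffOn_pd hU ((hp2 j).mono hUO) (by norm_num) k
  have hqU : ∀ x ∈ U, 0 < rr (gr v x) + gr v x 2 := fun x hx => hx.2
  have hrU : ∀ x ∈ U, 0 < gnorm v x := fun x hx => good_pos (hqU x hx)
  have hv2 : ∀ x ∈ U, ContDiffAt ℝ 2 v x := fun x hx =>
    (hv.contDiffAt (hO.mem_nhds (hUO hx))).of_le (by norm_num)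
  have hsym : ∀ x ∈ U, ∀ i j, he v x i j = he v x j i :=
    fun x hx i j => pd2_comm (hv2 x hx) i j
  have hdp : ∀ x ∈ U, ∀ i k,
      HasDerivAt (fun t : ℝ => gr v (x + t • ee i) k) (he v x i k) 0 := fun x hx i k =>
    hasDerivAt_line (((hpU k).contDiffAt (hU.mem_nhds hx)).differentiableAt one_ne_zero) i
  have hdA : ∀ x ∈ U, ∀ i k j,
      HasDerivAt (fun t : ℝ => he v (x + t • ee i) k j) (th v x i k j) 0 := fun x hx i k j =>
    hasDerivAt_line (((hAU k j).contDiffAt (hU.mem_nhds hx)).differentiableAt one_ne_zero) i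
  have hT : ∀ x ∈ U, ∀ l i j, th v x l i j = th v x l j i := fun x hx l i j => by
    have e : pd2 i j v =ᶠ[𝓝 x] pd2 j i v := by
      filter_upwards [hU.mem_nhds hx] with y hy
      exact hsym y hy i j
    simp only [th, pd, e.fderiv_eq]
  have hT' : ∀ x ∈ U, ∀ l i j, th v x l i j = th v x i l j := fun x hx l i j =>
    pd2_comm (((hp2 j).mono hUO).contDiffAt (hU.mem_nhds hx)) l i
  set Z : Fin 3 → E3 → ℝ := fun i x => zflux (gr v x) (he v x) i with hZdef
  have hZ : ∀ i, ContDiffOn ℝ 1 (Z i) U := contDiffOn_zflux hpU hAU hqU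
  have hm : ∀ i j, ContDiffOn ℝ 1 (Caccio.mflux v i j) U := fun i j =>
    (contDiffOn_tens hpU hqU i j).congr fun x hx => (tens_eq_mflux x (hrU x hx) i j).symm
  have hdiv : ∀ x ∈ U, ∑ i, pd i (Z i) x
      = -((Caccio.bsq v x - Caccio.sig v x * Caccio.strc v x) / gnorm v x) := by
    intro x hx
    rw [target_eq x (hrU x hx)]
    rw [← sum_dzflux (p := gr v x) (A := he v x) (T := th v x) (hsym x hx) (hT x hx) (hT' x hx) (hrU x hx) (hqU x hx)]
    refine Finset.sum_congr rfl fun i _ => ?_
    have h1 := hasDerivAt_line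
      (((hZ i).contDiffAt (hU.mem_nhds hx)).differentiableAt one_ne_zero) i
    have h2 := hasDerivAt_zflux (pt := fun t => gr v (x + t • ee i))
      (At := fun t => he v (x + t • ee i)) (hdp x hx i) (hdA x hx i)
      (by simpa [rr_gr] using hrU x hx) (by simpa using hqU x hx) i
    have h3 := h1.unique h2
    simp only [zero_smul, add_zero] at h3
    exact h3
  have hflux : ∀ x ∈ U, ∀ i,
      Z i x = (∑ j, pd j (Caccio.mflux v i j) x) + Caccio.kflux v i x := by
    intro x hx i
    rw [hZdef, ← kFlux_eq_kflux]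
    simp only
    rw [zflux_eq (p := gr v x) (hsym x hx) (hrU x hx) (hqU x hx)]
    congr 1
    refine Finset.sum_congr rfl fun j _ => ?_
    have hd := ((contDiffOn_tens hpU hqU i j).contDiffAt (hU.mem_nhds hx)).differentiableAt
      one_ne_zero
    have h1 := hasDerivAt_line hd j
    have h2 := hasDerivAt_tens (pt := fun t => gr v (x + t • ee j)) (hdp x hx j)
      (by simpa [rr_gr] using hrU x hx) (by simpa using hqU x hx) i j
    have h3 := h1.unique h2
    simp only [zero_smul, add_zero] at h3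
    have e : (fun y => tens (gr v y) i j) =ᶠ[𝓝 x] Caccio.mflux v i j := by
      filter_upwards [hU.mem_nhds hx] with y hy
      exact tens_eq_mflux y (hrU y hy) i j
    rw [← h3]
    simp only [pd, e.fderiv_eq]
  have hψd : ∀ i, ContDiff ℝ 1 (pd i ψ) := fun i =>
    (hψ.fderiv_right (m := 1) le_rfl).clm_apply contDiff_const
  have hψdc : ∀ i, HasCompactSupport (pd i ψ) := fun i => hψc.fderiv_apply ℝ (ee i)
  have hψdU : ∀ i, tsupport (pd i ψ) ⊆ U :=
    fun i => (tsupport_fderiv_apply_subset ℝ (ee i)).trans hψU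
  have hψ1 : ContDiff ℝ 1 ψ := hψ.of_le one_le_two
  have hG : ∀ i, ContDiff ℝ 1 (fun x => ψ x * Z i x) :=
    fun i => contDiff_mul_of_tsupport hU hψ1 hψU (hZ i)
  have hH : ∀ i j, ContDiff ℝ 1 (fun x => pd i ψ x * Caccio.mflux v i j x) :=
    fun i j => contDiff_mul_of_tsupport hU (hψd i) (hψdU i) (hm i j)
  have hψ2c : ∀ i j, Continuous (pd2 j i ψ) := fun i j =>
    ((hψd i).continuous_fderiv one_ne_zero).clm_apply continuous_const
  have hψ2U : ∀ i j, tsupport (pd2 j i ψ) ⊆ U :=
    fun i j => (tsupport_fderiv_apply_subset ℝ (ee j)).trans (hψdU i)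
  have cint : ∀ {φ g : E3 → ℝ}, Continuous φ → HasCompactSupport φ → tsupport φ ⊆ U →
      ContinuousOn g U → Integrable (fun x => φ x * g x) := fun {φ g} hφ hc hs hg => by
    refine Continuous.integrable_of_hasCompactSupport
      (continuous_iff_continuousAt.2 fun x => ?_) hc.mul_right
    by_cases hx : x ∈ U
    · exact hφ.continuousAt.mul (hg.continuousAt (hU.mem_nhds hx))
    · refine (continuousAt_const (y := (0 : ℝ))).congr ?_
      filter_upwards [notMem_tsupport_iff_eventuallyEq.1 fun h => hx (hs h)] with y hy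
      simp [hy]
  have hdZ : ∀ i, ContinuousOn (fun x => pd i (Z i) x) U :=
    fun i => (contDiffOn_pd hU (m := 0) (hZ i) (by norm_num) i).continuousOn
  have hdm : ∀ i j, ContinuousOn (fun x => pd j (Caccio.mflux v i j) x) U :=
    fun i j => (contDiffOn_pd hU (m := 0) (hm i j) (by norm_num) j).continuousOn
  have hK : ∀ i, ContinuousOn (fun x => Caccio.kflux v i x) U := fun i => by
    have hc : ContinuousOn (fun x => Z i x - ∑ j, pd j (Caccio.mflux v i j) x) U :=
      (hZ i).continuousOn.sub (continuousOn_finsetSum _ fun j _ => hdm i j)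
    refine hc.congr fun x hx => ?_
    simp only
    rw [hflux x hx i]
    ring
  have iZ1 : ∀ i, Integrable (fun x => pd i ψ x * Z i x) := fun i =>
    cint (hψd i).continuous (hψdc i) (hψdU i) (hZ i).continuousOn
  have iZ2 : ∀ i, Integrable (fun x => ψ x * pd i (Z i) x) := fun i =>
    cint hψ.continuous hψc hψU (hdZ i)
  have im1 : ∀ i j, Integrable (fun x => pd2 j i ψ x * Caccio.mflux v i j x) := fun i j =>
    cint (hψ2c i j) ((hψdc i).fderiv_apply ℝ (ee j)) (hψ2U i j) (hm i j).continuousOn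
  have im2 : ∀ i j, Integrable (fun x => pd i ψ x * pd j (Caccio.mflux v i j) x) := fun i j =>
    cint (hψd i).continuous (hψdc i) (hψdU i) (hdm i j)
  have iK : ∀ i, Integrable (fun x => pd i ψ x * Caccio.kflux v i x) := fun i =>
    cint (hψd i).continuous (hψdc i) (hψdU i) (hK i)
  have ibp : ∀ {φ g : E3 → ℝ} (i : Fin 3), ContDiff ℝ 1 φ → HasCompactSupport φ →
      tsupport φ ⊆ U → ContDiffOn ℝ 1 g U →
      Integrable (fun x => pd i φ x * g x) → Integrable (fun x => φ x * pd i g x) →
      ∫ x, φ x * pd i g x = -∫ x, pd i φ x * g x := fun {φ g} i hφ hc hs hg h1 h2 => by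
    have h0 := integral_pd_eq_zero (contDiff_mul_of_tsupport hU hφ hs hg) hc.mul_right i
    have e : (fun x => pd i (fun y => φ y * g y) x)
        = fun x => pd i φ x * g x + φ x * pd i g x := by
      funext x
      by_cases hx : x ∈ U
      · simp only [pd]
        rw [fderiv_fun_mul (hφ.differentiable one_ne_zero x)
          ((hg.contDiffAt (hU.mem_nhds hx)).differentiableAt one_ne_zero)]
        simp
        ring
      · have h := notMem_tsupport_iff_eventuallyEq.1 fun h => hx (hs h)
        have h' : (fun y => φ y * g y) =ᶠ[𝓝 x] (fun _ => (0 : ℝ)) := by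
          filter_upwards [h] with y hy
          simp [hy]
        simp [pd, h'.fderiv_eq, h.fderiv_eq, h.eq_of_nhds]
    rw [e, integral_add h1 h2] at h0
    linarith
  calc ∫ x, ψ x * ((Caccio.bsq v x - Caccio.sig v x * Caccio.strc v x) / gnorm v x)
      = ∫ x, -∑ i, ψ x * pd i (Z i) x := by
        refine integral_congr_ae (Eventually.of_forall fun x => ?_)
        simp only
        rw [← Finset.mul_sum]
        by_cases hx : x ∈ U
        · rw [hdiv x hx]; ring
        · simp [image_eq_zero_of_notMem_tsupport fun h => hx (hψU h)]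
    _ = ∑ i, ∫ x, pd i ψ x * Z i x := by
        rw [integral_neg, integral_finsetSum _ fun i _ => iZ2 i, ← Finset.sum_neg_distrib]
        refine Finset.sum_congr rfl fun i _ => ?_
        rw [ibp i hψ1 hψc hψU (hZ i) (iZ1 i) (iZ2 i), neg_neg]
    _ = ∑ i, ((∑ j, ∫ x, pd i ψ x * pd j (Caccio.mflux v i j) x)
          + ∫ x, pd i ψ x * Caccio.kflux v i x) := by
        refine Finset.sum_congr rfl fun i _ => ?_
        rw [← integral_finsetSum _ fun j _ => im2 i j,
          ← integral_add (integrable_finsetSum _ fun j _ => im2 i j) (iK i)]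
        refine integral_congr_ae (Eventually.of_forall fun x => ?_)
        simp only
        rw [← Finset.mul_sum, ← mul_add]
        by_cases hx : x ∈ U
        · rw [hflux x hx i]
        · simp [image_eq_zero_of_notMem_tsupport fun h => hx (hψdU i h)]
    _ = _ := by
        rw [integral_finsetSum _ fun i _ => integrable_finsetSum _ fun j _ => im1 i j,
          integral_finsetSum _ fun i _ => iK i, ← Finset.sum_neg_distrib, Finset.sum_add_distrib]
        congr 1
        refine Finset.sum_congr rfl fun i _ => ?_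
        rw [integral_finsetSum _ fun j _ => im1 i j, ← Finset.sum_neg_distrib]
        exact Finset.sum_congr rfl fun j _ =>
          ibp j (hψd i) (hψdc i) (hψdU i) (hm i j) (im1 i j) (im2 i j)

end Vale.Agent.P080C1.Identity
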